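import Vale.Agent.P318.GC.Weighted
import Vale.Agent.P318.NPH.Blow

/-!
The gap for the unweighted graph of a list of parity tests.
-/

namespace Vale.Agent.P318.GC

open Finset Vale.Agent.P318 Vale.Agent.P318.NPH

/-- The facts on the graph of a list of tests which are used later. -/
structure GapT (G0 Q D : ℕ) (ts : List Test) (v1 : ℕ) : Prop where
  graph : IsGraph (graphC (100 * G0) Q D ts)
  num : 0 < numC Q D ts v1
  den : 0 < denC (100 * G0) Q D ts
  r : 0 < rC (100 * G0) Q D ts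
  yes : YesT Q ts v1 → Phi (capU (graphC (100 * G0) Q D ts)) ≤
    (numC Q D ts v1 : ℝ) / ((denC (100 * G0) Q D ts * rC (100 * G0) Q D ts ^ 2 : ℕ) : ℝ)
  no : NoT G0 Q ts v1 →
    (((100 * G0 + 1) * numC Q D ts v1 : ℕ) : ℝ) /
      ((denC (100 * G0) Q D ts * (100 * G0) * rC (100 * G0) Q D ts ^ 2 : ℕ) : ℝ) ≤
      Phi (capU (graphC (100 * G0) Q D ts))

theorem gapT {G0 Q D : ℕ} {ts : List Test} (v1 : ℕ) (h : OkTs Q D ts) (hG0 : 1 ≤ G0) :
    GapT G0 Q D ts v1 := by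
  have hG : 1 ≤ 100 * G0 := by omega
  have hL := lC_pos (D := D) h hG
  have hSt := stC_pos h
  have hok := edgesC_ok (100 * G0) Q D ts h.Q1 hL hSt h.ok
  have hN : 2 ≤ nC (100 * G0) Q D ts := by
    rw [nC]
    have : 1 ≤ Q * lC (100 * G0) Q D ts := Nat.mul_pos h.Q1 hL
    have : 3 * Q * lC (100 * G0) Q D ts = 3 * (Q * lC (100 * G0) Q D ts) := by ring
    omega
  have hr : 1 ≤ rC (100 * G0) Q D ts := one_le_rN
  have hden : 0 < denC (100 * G0) Q D ts := by
    rw [denC]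
    exact Nat.mul_pos (Nat.mul_pos (by norm_num) (Nat.pow_pos h.Q1)) (Nat.pow_pos hL)
  constructor
  · exact isGraph_blowMat hN hr
  · rw [numC]
    have h1 : 0 < aC Q ts * Q := Nat.mul_pos (aC_pos h) h.Q1
    have h2 : 16 * aC Q ts * Q = 16 * (aC Q ts * Q) := by ring
    omega
  · exact hden
  · exact hr
  · intro hyes
    obtain ⟨S, h1, h2, h3⟩ := weighted_yesC h hG hyes
    have h4 := phi_blow_le hN hok S h1 h2 (numC Q D ts v1) (denC (100 * G0) Q D ts) hden h3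
    push_cast
    exact h4
  · intro hno
    have h3 := fun S => weighted_noC h hG0 hno S
    have h5 : 0 < denC (100 * G0) Q D ts * (100 * G0) := Nat.mul_pos hden (by omega)
    have h4 := phi_blow_ge hN hok ((100 * G0 + 1) * numC Q D ts v1)
      (denC (100 * G0) Q D ts * (100 * G0)) h5 h3
    push_cast
    push_cast at h4
    exact h4

theorem gap_arithC (n d G r : ℕ) (hn : 0 < n) (hd : 0 < d) (hG : 0 < G) (hr : 0 < r) (x : ℝ)
    (hx : x < 1 + 1 / (G : ℝ)) :
    x * ((n : ℝ) / ((d * r ^ 2 : ℕ) : ℝ)) <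
      (((G + 1) * n : ℕ) : ℝ) / ((d * G * r ^ 2 : ℕ) : ℝ) := by
  have hn0 : (0 : ℝ) < n := by exact_mod_cast hn
  have hd0 : (0 : ℝ) < d := by exact_mod_cast hd
  have hG0 : (0 : ℝ) < G := by exact_mod_cast hG
  have hr0 : (0 : ℝ) < r := by exact_mod_cast hr
  have h6 : (((G + 1) * n : ℕ) : ℝ) / ((d * G * r ^ 2 : ℕ) : ℝ) =
      (1 + 1 / (G : ℝ)) * ((n : ℝ) / ((d * r ^ 2 : ℕ) : ℝ)) := by
    push_cast
    field_simp
  rw [h6]
  refine mul_lt_mul_of_pos_right hx ?_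
  push_cast
  positivity

end Vale.Agent.P318.GC
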