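import Vale.Agent.P318.NPH.Defs

/-!
From lists of parity tests to graphs: definitions, on natural numbers and lists.
-/

namespace Vale.Agent.P318.GC

open Vale.Agent.P318.NPH

/-- A parity test: multiplicity, required parity, positions. -/
abbrev Test := ℕ × ℕ × List ℕ

/-- Total weight of the pairs. -/
def wT (ts : List Test) : ℕ := (ts.map fun t => t.1 * (t.2.2.length * (t.2.2.length - 1))).sum

/-- The quadratic part of the cost of an assignment. -/
def quadT (S : ℕ → Bool) (ts : List Test) : ℕ :=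
  (ts.map fun t => t.1 * (t.2.2.countP S * (t.2.2.length - t.2.2.countP S))).sum

/-- The weight of the violated tests. -/
def violT (S : ℕ → Bool) (ts : List Test) : ℕ :=
  (ts.map fun t => t.1 * (if (t.2.2.countP S + t.2.1) % 2 = 1 then 1 else 0)).sum

/-- A gadget with `D + 1` auxiliary vertices. -/
def gadgetD (D hs ht μ b : ℕ) (ps : List ℕ) (base : ℕ) : List (ℕ × ℕ × ℕ) :=
  gadget hs ht μ b ps base ++ (List.range (D - ps.length)).flatMap fun κ =>
    [(base + ps.length + 1 + κ, hs, μ), (base + ps.length + 1 + κ, ht, μ)]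

/-- The capacity of the edges to the hubs. -/
def aC (Q : ℕ) (ts : List Test) : ℕ := 16 * wT ts * Q

/-- Number of auxiliary vertices. -/
def stC (D : ℕ) (ts : List Test) : ℕ := ts.length * (D + 1)

/-- Number of copies of each unit. -/
def lC (G Q D : ℕ) (ts : List Test) : ℕ := 10 ^ 4 * G * stC D ts * aC Q ts

/-- Capacity of the heavy edges. -/
def bigC (Q : ℕ) (ts : List Test) : ℕ := 4 * aC Q ts * Q

/-- Number of vertices. -/
def nC (G Q D : ℕ) (ts : List Test) : ℕ := 3 * Q * lC G Q D ts + stC D ts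

/-- The default test. -/
def dT : Test := (0, 0, [])

/-- The gadgets of the tests. -/
def gadE (Q D : ℕ) (ts : List Test) (n1 : ℕ) : List (ℕ × ℕ × ℕ) :=
  (List.range ts.length).flatMap fun i =>
    gadgetD D Q (2 * Q) (Q ^ 2 * (ts.getD i dT).1) (ts.getD i dT).2.1 (ts.getD i dT).2.2
      (n1 + i * (D + 1))

/-- All edges. -/
def edgesC (G Q D : ℕ) (ts : List Test) : List (ℕ × ℕ × ℕ) :=
  clusterE Q (lC G Q D ts) (bigC Q ts) ++ hubE Q (aC Q ts) ++
    gadE Q D ts (3 * Q * lC G Q D ts)

/-- Sum of the constants of the gadgets. -/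
def constC (Q D : ℕ) (ts : List Test) : ℕ :=
  Q ^ 2 * (ts.map fun t => t.1 * (dN t.2.2.length t.2.1 + 2 * (D - t.2.2.length))).sum

/-- Numerator of the threshold. -/
def numC (Q D : ℕ) (ts : List Test) (v1 : ℕ) : ℕ :=
  16 * aC Q ts * Q + 2 * wT ts * Q ^ 2 + 8 * constC Q D ts + 8 * Q ^ 2 * v1

/-- Denominator of the threshold. -/
def denC (G Q D : ℕ) (ts : List Test) : ℕ := 36 * Q ^ 2 * lC G Q D ts ^ 2

/-- The number of copies in the unweighted graph. -/
def rC (G Q D : ℕ) (ts : List Test) : ℕ := rN (nC G Q D ts) (edgesC G Q D ts)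

/-- The unweighted graph. -/
def graphC (G Q D : ℕ) (ts : List Test) : List (List Bool) :=
  blowMat (nC G Q D ts) (rC G Q D ts) (edgesC G Q D ts)

end Vale.Agent.P318.GC
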