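import Vale.Agent.P318.NPH.EdgesOk
import Vale.Agent.P318.GC.Defs

/-!
Cuts of the graph of a list of parity tests.
-/

namespace Vale.Agent.P318.GC

open Finset Vale.Agent.P318.NPH

/-! ### Gadgets with additional vertices -/

theorem pad_sep (hs ht μ n base : ℕ) (S : ℕ → Bool) (h1 : S hs = true) (h2 : S ht = false) :
    cutE ((List.range n).flatMap fun κ => [(base + κ, hs, μ), (base + κ, ht, μ)]) S = μ * n := by
  rw [cutE_range, sum_congr rfl (g := fun _ => μ)]
  · rw [sum_const, card_range, smul_eq_mul, mul_comm]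
  · intro κ _
    rw [cutE_cons, cutE_cons, cutE_nil]
    dsimp only
    rw [h1, h2]
    cases S (base + κ) <;> simp

theorem gadgetD_ge (D hs ht μ b : ℕ) (ps : List ℕ) (base : ℕ) (S : ℕ → Bool) (h1 : S hs = true)
    (h2 : S ht = false) :
    μ * (aVal ps.length b (ps.countP S) + (D - ps.length)) ≤
      cutE (gadgetD D hs ht μ b ps base) S := by
  rw [gadgetD, cutE_append, pad_sep hs ht μ _ _ S h1 h2, mul_add]
  exact Nat.add_le_add_right (gadget_ge hs ht μ b ps base S h1 h2) _

theorem gadgetD_eq (D hs ht μ b : ℕ) (ps : List ℕ) (base : ℕ) (S : ℕ → Bool) (h1 : S hs = true)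
    (h2 : S ht = false)
    (h3 : ∀ κ ≤ ps.length, S (base + κ) = decide (κ ≤ ps.countP S)) :
    cutE (gadgetD D hs ht μ b ps base) S =
      μ * (aVal ps.length b (ps.countP S) + (D - ps.length)) := by
  rw [gadgetD, cutE_append, pad_sep hs ht μ _ _ S h1 h2, mul_add,
    gadget_eq hs ht μ b ps base S h1 h2 h3]

theorem gadgetD_same (D hs ht μ b : ℕ) (hμ : 1 ≤ μ) (ps : List ℕ) (hw : 1 ≤ ps.length)
    (hD : ps.length ≤ D) (base : ℕ) (S : ℕ → Bool) (h1 : S hs = false) (h2 : S ht = false) :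
    cntN S base (D + 1) ≤ cutE (gadgetD D hs ht μ b ps base) S := by
  have e : D + 1 = (ps.length + 1) + (D - ps.length) := by omega
  rw [e, cntN_add, gadgetD, cutE_append]
  refine add_le_add ?_ ?_
  · have := gadget_same hs ht μ b hμ ps hw base S h1 h2
    rwa [card_filter] at this
  · rw [cutE_range, cntN]
    refine sum_le_sum fun κ _ => ?_
    rw [cutE_cons, cutE_cons, cutE_nil]
    dsimp only
    rw [h1, h2, show base + (ps.length + 1) + κ = base + ps.length + 1 + κ by ring]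
    cases S (base + ps.length + 1 + κ)
    · simp
    · simp; omega

theorem gadgetD_ok {D N Q hs ht μ b base : ℕ} {ps : List ℕ} (hhs : hs < 3 * Q) (hht : ht < 3 * Q)
    (hb : 3 * Q ≤ base) (hD : ps.length ≤ D) (hN : base + D < N) (hps : ∀ p ∈ ps, p < Q) :
    ∀ e ∈ gadgetD D hs ht μ b ps base, EOk N e := by
  intro e he
  rw [gadgetD, List.mem_append] at he
  rcases he with he | he
  · exact gadget_ok hhs hht hb (by omega) hps e he
  · rw [List.mem_flatMap] at he
    obtain ⟨κ, hκ, he⟩ := he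
    rw [List.mem_range] at hκ
    rw [List.mem_cons, List.mem_singleton] at he
    rcases he with rfl | rfl
    · exact ⟨by dsimp only; omega, by dsimp only; omega, by dsimp only; omega⟩
    · exact ⟨by dsimp only; omega, by dsimp only; omega, by dsimp only; omega⟩

/-! ### Tests -/

/-- What is needed of a test. -/
structure OkT (Q D : ℕ) (t : Test) : Prop where
  mu : 1 ≤ t.1
  par : t.2.1 ≤ 1
  even : t.2.2.length % 2 = 0
  two : 2 ≤ t.2.2.length
  le : t.2.2.length ≤ D
  dle : D ≤ t.2.2.length * (t.2.2.length - 1)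
  lt : ∀ p ∈ t.2.2, p < Q

/-- The value of a cut which separates the hubs (times two). -/
def valC (Q D : ℕ) (ts : List Test) (S : ℕ → Bool) : ℕ :=
  2 * (aC Q ts * Q) + Q ^ 2 * quadT S ts + constC Q D ts + Q ^ 2 * violT S ts

theorem sum_getD' {β : Type*} (l : List β) (d : β) (f : β → ℕ) :
    ∑ i ∈ range l.length, f (l.getD i d) = (l.map f).sum := by
  induction l with
  | nil => simp
  | cons a l ih =>
    rw [List.length_cons, sum_range_succ', List.map_cons, List.sum_cons, ← ih]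
    simp [add_comm]

/-- The capacity of the gadgets. -/
def gadVal (Q D : ℕ) (S : ℕ → Bool) (t : Test) : ℕ :=
  Q ^ 2 * t.1 * (aVal t.2.2.length t.2.1 (t.2.2.countP S) + (D - t.2.2.length))

theorem two_gadVal {Q D : ℕ} {t : Test} (ht : OkT Q D t) (S : ℕ → Bool) :
    2 * gadVal Q D S t = Q ^ 2 * (t.1 * (t.2.2.countP S * (t.2.2.length - t.2.2.countP S))) +
      Q ^ 2 * (t.1 * (dN t.2.2.length t.2.1 + 2 * (D - t.2.2.length))) +
      Q ^ 2 * (t.1 * (if (t.2.2.countP S + t.2.1) % 2 = 1 then 1 else 0)) := by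
  have h := aVal_eq t.2.2.length t.2.1 (t.2.2.countP S) ht.two ht.even ht.par
    List.countP_le_length
  rw [gadVal]
  calc 2 * (Q ^ 2 * t.1 * (aVal t.2.2.length t.2.1 (t.2.2.countP S) + (D - t.2.2.length))) =
      Q ^ 2 * t.1 * (2 * aVal t.2.2.length t.2.1 (t.2.2.countP S) + 2 * (D - t.2.2.length)) := by
        ring
    _ = _ := by rw [h]; ring

theorem valC_eq (Q D : ℕ) (ts : List Test) (hts : ∀ t ∈ ts, OkT Q D t) (S : ℕ → Bool) :
    valC Q D ts S = 2 * (aC Q ts * Q + (ts.map (gadVal Q D S)).sum) := by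
  have h : 2 * (ts.map (gadVal Q D S)).sum =
      Q ^ 2 * quadT S ts + constC Q D ts + Q ^ 2 * violT S ts := by
    rw [quadT, constC, violT, ← List.sum_map_mul_left, ← List.sum_map_mul_left,
      ← List.sum_map_mul_left, ← List.sum_map_mul_left, ← List.sum_map_add, ← List.sum_map_add]
    congr 1
    refine List.map_congr_left fun t ht => ?_
    exact two_gadVal (hts t ht) S
  rw [mul_add, h, valC]
  ring

theorem sep_geC (G Q D : ℕ) (ts : List Test) (hts : ∀ t ∈ ts, OkT Q D t) (S : ℕ → Bool)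
    (h1 : S Q = true) (h2 : S (2 * Q) = false) :
    valC Q D ts S ≤ 2 * cutE (edgesC G Q D ts) S := by
  rw [valC_eq Q D ts hts S]
  refine Nat.mul_le_mul_left _ ?_
  rw [edgesC, cutE_append, cutE_append, hub_sep _ _ _ h1 h2]
  refine add_le_add (Nat.le_add_left _ _) ?_
  rw [gadE, cutE_range, ← sum_getD' ts dT]
  exact sum_le_sum fun i _ => gadgetD_ge _ _ _ _ _ _ _ S h1 h2

/-- The auxiliary vertices are on the better side. -/
def GoodC (G Q D : ℕ) (ts : List Test) (S : ℕ → Bool) : Prop :=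
  ∀ i < ts.length, ∀ κ ≤ (ts.getD i dT).2.2.length,
    S (3 * Q * lC G Q D ts + i * (D + 1) + κ) = decide (κ ≤ (ts.getD i dT).2.2.countP S)

theorem sep_eqC (G Q D : ℕ) (ts : List Test) (hts : ∀ t ∈ ts, OkT Q D t) (S : ℕ → Bool)
    (h1 : S Q = true) (h2 : S (2 * Q) = false) (hU : Unif Q (lC G Q D ts) S)
    (hG : GoodC G Q D ts S) :
    2 * cutE (edgesC G Q D ts) S = valC Q D ts S := by
  rw [valC_eq Q D ts hts S]
  congr 1
  rw [edgesC, cutE_append, cutE_append, hub_sep _ _ _ h1 h2, hU.cluster, zero_add]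
  congr 1
  rw [gadE, cutE_range, ← sum_getD' ts dT]
  refine sum_congr rfl fun i hi => ?_
  rw [mem_range] at hi
  exact gadgetD_eq _ _ _ _ _ _ _ S h1 h2 (hG i hi)

/-- Cuts which do not separate the hubs. -/
theorem same_geC (G Q D : ℕ) (ts : List Test) (hQ : 1 ≤ Q) (hts : ∀ t ∈ ts, OkT Q D t)
    (S : ℕ → Bool) (h1 : S Q = false) (h2 : S (2 * Q) = false) :
    2 * aC Q ts * cntN S 0 Q + cntN S (3 * Q * lC G Q D ts) (stC D ts) ≤
      cutE (edgesC G Q D ts) S := by
  rw [edgesC, cutE_append, cutE_append, hub_same _ _ _ h1 h2, stC]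
  suffices hs : cntN S (3 * Q * lC G Q D ts) (ts.length * (D + 1)) ≤
      cutE (gadE Q D ts (3 * Q * lC G Q D ts)) S by
    omega
  rw [gadE, cutE_range, cntN_mul]
  refine sum_le_sum fun i hi => ?_
  rw [mem_range] at hi
  have hmem : ts.getD i dT ∈ ts := by
    rw [List.getD_eq_getElem _ _ hi]
    exact List.getElem_mem hi
  have ht := hts _ hmem
  have h3 : 1 ≤ Q ^ 2 * (ts.getD i dT).1 := Nat.mul_pos (Nat.pow_pos hQ) ht.mu
  exact gadgetD_same D Q (2 * Q) _ _ h3 _ (le_trans (by norm_num) ht.two) ht.le _ S h1 h2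

/-! ### The edges join distinct vertices -/

theorem edgesC_ok (G Q D : ℕ) (ts : List Test) (hQ : 1 ≤ Q) (hL : 1 ≤ lC G Q D ts)
    (hSt : 1 ≤ stC D ts) (hts : ∀ t ∈ ts, OkT Q D t) :
    ∀ e ∈ edgesC G Q D ts, EOk (nC G Q D ts) e := by
  intro e he
  rw [edgesC] at he
  set L := lC G Q D ts with hLdef
  set N := nC G Q D ts with hN
  have hNN : N = 3 * Q * L + stC D ts := rfl
  have h3QL : 3 * Q ≤ 3 * Q * L := Nat.le_mul_of_pos_right _ hL
  rw [List.mem_append, List.mem_append] at he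
  rcases he with (he | he) | he
  · rw [clusterE, List.mem_append, List.mem_append, List.mem_flatMap] at he
    rcases he with (⟨u, hu, he⟩ | he) | he
    · obtain ⟨j, hj, rfl⟩ := List.mem_map.1 he
      rw [List.mem_range] at hu hj
      have h1 : 3 * Q * (j + 1) + 3 * Q ≤ 3 * Q * L := by
        calc 3 * Q * (j + 1) + 3 * Q = 3 * Q * (j + 2) := by ring
          _ ≤ 3 * Q * L := Nat.mul_le_mul_left _ (by omega)
      have h2 : 1 ≤ 3 * Q * (j + 1) := Nat.mul_pos (by omega) (by omega)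
      exact ⟨by dsimp only; omega, by dsimp only; omega, by dsimp only; omega⟩
    · obtain ⟨i, hi, rfl⟩ := List.mem_map.1 he
      rw [List.mem_range] at hi
      exact ⟨by dsimp only; omega, by dsimp only; omega, by dsimp only; omega⟩
    · obtain ⟨i, hi, rfl⟩ := List.mem_map.1 he
      rw [List.mem_range] at hi
      exact ⟨by dsimp only; omega, by dsimp only; omega, by dsimp only; omega⟩
  · rw [hubE, List.mem_flatMap] at he
    obtain ⟨p, hp, he⟩ := he
    rw [List.mem_range] at hp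
    rw [List.mem_cons, List.mem_singleton] at he
    rcases he with rfl | rfl
    · exact ⟨by dsimp only; omega, by dsimp only; omega, by dsimp only; omega⟩
    · exact ⟨by dsimp only; omega, by dsimp only; omega, by dsimp only; omega⟩
  · rw [gadE, List.mem_flatMap] at he
    obtain ⟨i, hi, he⟩ := he
    rw [List.mem_range] at hi
    have hmem : ts.getD i dT ∈ ts := by
      rw [List.getD_eq_getElem _ _ hi]
      exact List.getElem_mem hi
    have ht := hts _ hmem
    refine gadgetD_ok (Q := Q) (by omega) (by omega) (by omega) ht.le ?_ ht.lt e he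
    rw [hNN, stC]
    have h1 : (i + 1) * (D + 1) ≤ ts.length * (D + 1) := Nat.mul_le_mul_right _ hi
    have h2 : (i + 1) * (D + 1) = i * (D + 1) + (D + 1) := by ring
    omega

/-! ### Extension of an assignment to the graph -/

/-- The extension. -/
def extC (G Q D : ℕ) (ts : List Test) (S : ℕ → Bool) (v : ℕ) : Bool :=
  if v < 3 * Q * lC G Q D ts then
    (if v % (3 * Q) < Q then S (v % (3 * Q)) else decide (v % (3 * Q) < 2 * Q))
  else decide ((v - 3 * Q * lC G Q D ts) % (D + 1) ≤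
    (ts.getD ((v - 3 * Q * lC G Q D ts) / (D + 1)) dT).2.2.countP S)

section ext

variable {G Q D : ℕ} {ts : List Test} {S : ℕ → Bool}

theorem extC_lt (hL : 1 ≤ lC G Q D ts) {v : ℕ} (hv : v < Q) : extC G Q D ts S v = S v := by
  have h1 : 3 * Q * 1 ≤ 3 * Q * lC G Q D ts := Nat.mul_le_mul_left _ hL
  have h2 : v % (3 * Q) = v := Nat.mod_eq_of_lt (by omega)
  rw [extC, if_pos (by omega), h2, if_pos hv]

theorem extC_of_lt {v : ℕ} (hv : v < 3 * Q * lC G Q D ts) : extC G Q D ts S v =
    if v % (3 * Q) < Q then S (v % (3 * Q)) else decide (v % (3 * Q) < 2 * Q) := by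
  rw [extC, if_pos hv]

theorem extC_mid (hL : 1 ≤ lC G Q D ts) {i : ℕ} (hi : i < Q) :
    extC G Q D ts S (Q + i) = true := by
  have h1 : 3 * Q * 1 ≤ 3 * Q * lC G Q D ts := Nat.mul_le_mul_left _ hL
  have h2 : (Q + i) % (3 * Q) = Q + i := Nat.mod_eq_of_lt (by omega)
  rw [extC_of_lt (by omega), h2, if_neg (by omega), decide_eq_true (by omega)]

theorem extC_high (hL : 1 ≤ lC G Q D ts) {i : ℕ} (hi : i < Q) :
    extC G Q D ts S (2 * Q + i) = false := by
  have h1 : 3 * Q * 1 ≤ 3 * Q * lC G Q D ts := Nat.mul_le_mul_left _ hL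
  have h2 : (2 * Q + i) % (3 * Q) = 2 * Q + i := Nat.mod_eq_of_lt (by omega)
  rw [extC_of_lt (by omega), h2, if_neg (by omega), decide_eq_false (by omega)]

theorem extC_hub1 (hQ : 1 ≤ Q) (hL : 1 ≤ lC G Q D ts) : extC G Q D ts S Q = true :=
  extC_mid (i := 0) hL hQ

theorem extC_hub2 (hQ : 1 ≤ Q) (hL : 1 ≤ lC G Q D ts) : extC G Q D ts S (2 * Q) = false :=
  extC_high (i := 0) hL hQ

theorem extC_unif (hQ : 1 ≤ Q) (hL : 1 ≤ lC G Q D ts) :
    Unif Q (lC G Q D ts) (extC G Q D ts S) := by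
  have h1 : 3 * Q * 1 ≤ 3 * Q * lC G Q D ts := Nat.mul_le_mul_left _ hL
  constructor
  · intro u hu j hj
    have h2 : u + 3 * Q * j < 3 * Q * lC G Q D ts := by
      have : 3 * Q * (j + 1) ≤ 3 * Q * lC G Q D ts := Nat.mul_le_mul_left _ hj
      have : 3 * Q * (j + 1) = 3 * Q * j + 3 * Q := by ring
      omega
    rw [extC_of_lt h2, extC_of_lt (v := u) (by omega), Nat.add_mul_mod_self_left]
  · intro i hi
    rw [extC_mid hL hi, extC_hub1 hQ hL]
  · intro i hi
    rw [extC_high hL hi, extC_hub2 hQ hL]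

theorem countP_ext (hL : 1 ≤ lC G Q D ts) {ps : List ℕ} (h : ∀ p ∈ ps, p < Q) :
    ps.countP (extC G Q D ts S) = ps.countP S := by
  refine List.countP_congr fun p hp => ?_
  rw [extC_lt hL (h p hp)]

theorem extC_good (hL : 1 ≤ lC G Q D ts) (hts : ∀ t ∈ ts, OkT Q D t) :
    GoodC G Q D ts (extC G Q D ts S) := by
  intro i hi κ hκ
  have hmem : ts.getD i dT ∈ ts := by
    rw [List.getD_eq_getElem _ _ hi]
    exact List.getElem_mem hi
  have ht := hts _ hmem
  have hle := ht.le
  rw [countP_ext hL ht.lt, extC, if_neg (by omega)]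
  have h1 : 3 * Q * lC G Q D ts + i * (D + 1) + κ - 3 * Q * lC G Q D ts = κ + i * (D + 1) := by
    omega
  rw [h1, Nat.add_mul_mod_self_right, Nat.add_mul_div_right _ _ (Nat.succ_pos D),
    Nat.mod_eq_of_lt (by omega), Nat.div_eq_of_lt (by omega), zero_add]

theorem quadT_congr {S S' : ℕ → Bool} {ts : List Test}
    (h : ∀ t ∈ ts, t.2.2.countP S = t.2.2.countP S') : quadT S ts = quadT S' ts := by
  rw [quadT, quadT]
  congr 1
  refine List.map_congr_left fun t ht => ?_
  rw [h t ht]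

theorem violT_congr {S S' : ℕ → Bool} {ts : List Test}
    (h : ∀ t ∈ ts, t.2.2.countP S = t.2.2.countP S') : violT S ts = violT S' ts := by
  rw [violT, violT]
  congr 1
  refine List.map_congr_left fun t ht => ?_
  rw [h t ht]

end ext

end Vale.Agent.P318.GC
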