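import Vale.Agent.P318.GC.Defs
import Vale.Agent.P318.NPH.PTGraph

/-!
The graph of a list of parity tests is computable in polynomial time.
-/

namespace Vale.Agent.P318.GC

open Vale.Agent.Lib.PolyTime Vale.Agent.P318.NPH

variable {A : Set Word} {α : Type*} [Enc α]

section

variable {Q D v m : α → ℕ} {ts : α → List Test}

theorem PT_wT (hts : PT A ts) : PT A (fun x => wT (ts x)) := by
  unfold wT
  exact PT.sum (PT.map (f := fun _ (t : Test) => t.1 * (t.2.2.length * (t.2.2.length - 1))) hts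
    (PT.snd'.fst.mul (PT.snd'.snd.snd.length.mul (PT.snd'.snd.snd.length.sub (PT.const 1)))))

theorem wT_le (ts : List Test) (m : ℕ) (h : ∀ t ∈ ts, t.1 ≤ m) :
    wT ts ≤ ts.length * (m * (esize ts * esize ts)) := by
  rw [wT]
  have h1 := List.sum_le_card_nsmul (ts.map fun t => t.1 * (t.2.2.length * (t.2.2.length - 1)))
    (m * (esize ts * esize ts)) (by
      intro c hc
      obtain ⟨t, ht, rfl⟩ := List.mem_map.1 hc
      have h2 : t.2.2.length ≤ esize ts :=
        (length_le_esize _).trans ((esize_snd_le _).trans ((esize_snd_le _).trans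
          (esize_le_of_mem ht)))
      exact Nat.mul_le_mul (h t ht) (Nat.mul_le_mul h2 (by omega)))
  rwa [List.length_map, smul_eq_mul] at h1

theorem PBd_wT (hts : PT ∅ ts) (hm : PBd m) (h : ∀ x, ∀ t ∈ ts x, t.1 ≤ m x) :
    PBd (fun x => wT (ts x)) :=
  ((PBd.length hts).mul (hm.mul (hts.pbd.mul hts.pbd))).mono fun x => wT_le _ _ (h x)

theorem PT_aC (hQ : PT A Q) (hts : PT A ts) : PT A (fun x => aC (Q x) (ts x)) :=
  ((PT.const 16).mul (PT_wT hts)).mul hQ

theorem PBd_aC (hQ : PBd Q) (hw : PBd (fun x => wT (ts x))) : PBd (fun x => aC (Q x) (ts x)) :=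
  ((PBd.const 16).mul hw).mul hQ

theorem PT_stC (hD : PT A D) (hts : PT A ts) : PT A (fun x => stC (D x) (ts x)) :=
  hts.length.mul (hD.add (PT.const 1))

theorem PBd_stC (hD : PBd D) (hts : PT ∅ ts) : PBd (fun x => stC (D x) (ts x)) :=
  (PBd.length hts).mul (hD.add (PBd.const 1))

theorem PT_lC (G : ℕ) (hQ : PT A Q) (hD : PT A D) (hts : PT A ts) :
    PT A (fun x => lC G (Q x) (D x) (ts x)) :=
  (((PT.const (10 ^ 4)).mul (PT.const G)).mul (PT_stC hD hts)).mul (PT_aC hQ hts)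

theorem PBd_lC (G : ℕ) (hQ : PBd Q) (hD : PBd D) (hts : PT ∅ ts)
    (hw : PBd (fun x => wT (ts x))) : PBd (fun x => lC G (Q x) (D x) (ts x)) :=
  (((PBd.const (10 ^ 4)).mul (PBd.const G)).mul (PBd_stC hD hts)).mul (PBd_aC hQ hw)

theorem PT_bigC (hQ : PT A Q) (hts : PT A ts) : PT A (fun x => bigC (Q x) (ts x)) :=
  ((PT.const 4).mul (PT_aC hQ hts)).mul hQ

theorem PBd_bigC (hQ : PBd Q) (hw : PBd (fun x => wT (ts x))) :
    PBd (fun x => bigC (Q x) (ts x)) := ((PBd.const 4).mul (PBd_aC hQ hw)).mul hQ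

theorem PT_nC (G : ℕ) (hQ : PT A Q) (hD : PT A D) (hts : PT A ts) :
    PT A (fun x => nC G (Q x) (D x) (ts x)) :=
  (((PT.const 3).mul hQ).mul (PT_lC G hQ hD hts)).add (PT_stC hD hts)

theorem PBd_nC (G : ℕ) (hQ : PBd Q) (hD : PBd D) (hts : PT ∅ ts)
    (hw : PBd (fun x => wT (ts x))) : PBd (fun x => nC G (Q x) (D x) (ts x)) :=
  (((PBd.const 3).mul hQ).mul (PBd_lC G hQ hD hts hw)).add (PBd_stC hD hts)

theorem PT_constC (hQ : PT A Q) (hD : PT A D) (hts : PT A ts) :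
    PT A (fun x => constC (Q x) (D x) (ts x)) := by
  unfold constC
  refine (hQ.powConst 2).mul (PT.sum (PT.map (f := fun x (t : Test) =>
    t.1 * (dN t.2.2.length t.2.1 + 2 * (D x - t.2.2.length))) hts ?_))
  have h1 : PT A (fun p : α × Test => p.2.2.2.length) := PT.snd'.snd.snd.length
  exact PT.snd'.fst.mul ((PT_dN h1 PT.snd'.snd.fst).add
    ((PT.const 2).mul ((hD.comp PT.fst').sub h1)))

theorem PT_numC (hQ : PT A Q) (hD : PT A D) (hts : PT A ts) (hv : PT A v) :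
    PT A (fun x => numC (Q x) (D x) (ts x) (v x)) := by
  unfold numC
  exact (((((PT.const 16).mul (PT_aC hQ hts)).mul hQ).add
    (((PT.const 2).mul (PT_wT hts)).mul (hQ.powConst 2))).add
    ((PT.const 8).mul (PT_constC hQ hD hts))).add
    (((PT.const 8).mul (hQ.powConst 2)).mul hv)

theorem PT_denC (G : ℕ) (hQ : PT A Q) (hD : PT A D) (hts : PT A ts) :
    PT A (fun x => denC G (Q x) (D x) (ts x)) :=
  ((PT.const 36).mul (hQ.powConst 2)).mul ((PT_lC G hQ hD hts).powConst 2)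

theorem PT_gadgetD {D hs ht μ b base : α → ℕ} {ps : α → List ℕ} (hD : PT A D) (hDb : PBd D)
    (hhs : PT A hs) (hht : PT A ht) (hμ : PT A μ) (hb : PT A b) (hps : PT A ps)
    (hbase : PT A base) :
    PT A (fun x => gadgetD (D x) (hs x) (ht x) (μ x) (b x) (ps x) (base x)) := by
  unfold gadgetD
  refine PT.append (PT_gadget hhs hht hμ hb hps hbase) ?_
  refine PT.flatMap (f := fun x κ => [(base x + (ps x).length + 1 + κ, hs x, μ x),
    (base x + (ps x).length + 1 + κ, ht x, μ x)])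
    (PT.range (hD.sub hps.length) (PBd.sub hDb _)) ?_
  have h1 : PT A (fun p : α × ℕ => base p.1 + (ps p.1).length + 1 + p.2) :=
    (((hbase.add hps.length).add (PT.const 1)).comp PT.fst').add PT.snd'
  exact PT.cons (h1.pair ((hhs.comp PT.fst').pair (hμ.comp PT.fst')))
    (PT.cons (h1.pair ((hht.comp PT.fst').pair (hμ.comp PT.fst'))) PT.nil)

theorem PT_gadE {n1 : α → ℕ} (hQ : PT A Q) (hD : PT A D) (hDb : PBd D) (hts : PT A ts)
    (hn : PT A n1) : PT A (fun x => gadE (Q x) (D x) (ts x) (n1 x)) := by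
  unfold gadE
  refine PT.flatMap (f := fun x i => gadgetD (D x) (Q x) (2 * Q x)
    (Q x ^ 2 * ((ts x).getD i dT).1) ((ts x).getD i dT).2.1 ((ts x).getD i dT).2.2
      (n1 x + i * (D x + 1))) (PT.range hts.length (PBd.length hts)) ?_
  have ht : PT A (fun p : α × ℕ => (ts p.1).getD p.2 dT) :=
    PT.getD (hts.comp PT.fst') PT.snd' (PT.const dT)
  have hQ' : PT A (fun p : α × ℕ => Q p.1) := hQ.comp PT.fst'
  have hD' : PT A (fun p : α × ℕ => D p.1) := hD.comp PT.fst'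
  exact PT_gadgetD hD' (PBd.fst hDb) hQ' ((PT.const 2).mul hQ') ((hQ'.powConst 2).mul ht.fst)
    ht.snd.fst ht.snd.snd ((hn.comp PT.fst').add (PT.snd'.mul (hD'.add (PT.const 1))))

theorem PT_edgesC (G : ℕ) (hQ : PT ∅ Q) (hQb : PBd Q) (hD : PT ∅ D) (hDb : PBd D) (hts : PT ∅ ts)
    (hw : PBd (fun x => wT (ts x))) : PT ∅ (fun x => edgesC G (Q x) (D x) (ts x)) := by
  unfold edgesC
  have hL := PT_lC G hQ hD hts
  exact PT.append (PT.append
    (PT_clusterE hQ hQb hL (PBd_lC G hQb hDb hts hw) (PT_bigC hQ hts))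
    (PT_hubE hQ hQb (PT_aC hQ hts)))
    (PT_gadE hQ hD hDb hts (((PT.const 3).mul hQ).mul hL))

/-! ### Capacities -/

theorem gadgetD_cap {D hs ht μ b base : ℕ} {ps : List ℕ} {e : ℕ × ℕ × ℕ}
    (he : e ∈ gadgetD D hs ht μ b ps base) : e.2.2 ≤ μ * (ps.length + 1) := by
  rw [gadgetD, List.mem_append] at he
  rcases he with he | he
  · exact gadget_cap he
  · obtain ⟨κ, _, he⟩ := List.mem_flatMap.1 he
    simp only [List.mem_cons, List.not_mem_nil, or_false] at he
    rcases he with rfl | rfl <;> exact Nat.le_mul_of_pos_right _ (Nat.succ_pos _)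

theorem edgesC_cap {G Q D m : ℕ} {ts : List Test} (h : ∀ t ∈ ts, t.1 ≤ m) {e : ℕ × ℕ × ℕ}
    (he : e ∈ edgesC G Q D ts) :
    e.2.2 ≤ bigC Q ts + aC Q ts + Q ^ 2 * m * (esize ts + 1) := by
  simp only [edgesC, List.mem_append] at he
  rcases he with (he | he) | he
  · have : e.2.2 = bigC Q ts := by
      simp only [clusterE, List.mem_append] at he
      rcases he with (he | he) | he
      · obtain ⟨u, _, he⟩ := List.mem_flatMap.1 he
        obtain ⟨j, _, rfl⟩ := List.mem_map.1 he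
        rfl
      · obtain ⟨j, _, rfl⟩ := List.mem_map.1 he
        rfl
      · obtain ⟨j, _, rfl⟩ := List.mem_map.1 he
        rfl
    omega
  · obtain ⟨p, _, he⟩ := List.mem_flatMap.1 he
    simp only [List.mem_cons, List.not_mem_nil, or_false] at he
    have : e.2.2 = aC Q ts := by rcases he with rfl | rfl <;> rfl
    omega
  · obtain ⟨i, hi, he⟩ := List.mem_flatMap.1 he
    rw [List.mem_range] at hi
    have hmem : ts.getD i dT ∈ ts := by
      rw [List.getD_eq_getElem _ _ hi]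
      exact List.getElem_mem hi
    have h1 := gadgetD_cap he
    have h2 : (ts.getD i dT).2.2.length ≤ esize ts :=
      (length_le_esize _).trans ((esize_snd_le _).trans ((esize_snd_le _).trans
        (esize_le_of_mem hmem)))
    have h3 : Q ^ 2 * (ts.getD i dT).1 * ((ts.getD i dT).2.2.length + 1) ≤
        Q ^ 2 * m * (esize ts + 1) :=
      Nat.mul_le_mul (Nat.mul_le_mul_left _ (h _ hmem)) (by omega)
    omega

theorem PBd_edgesC_sum (G : ℕ) (hQ : PT ∅ Q) (hQb : PBd Q) (hD : PT ∅ D) (hDb : PBd D)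
    (hts : PT ∅ ts) (hm : PBd m) (h : ∀ x, ∀ t ∈ ts x, t.1 ≤ m x) :
    PBd (fun x => ((edgesC G (Q x) (D x) (ts x)).map fun e => e.2.2).sum) := by
  have hw := PBd_wT hts hm h
  have h1 : PBd (fun x => bigC (Q x) (ts x) + aC (Q x) (ts x) +
      Q x ^ 2 * m x * (esize (ts x) + 1)) :=
    ((PBd_bigC hQb hw).add (PBd_aC hQb hw)).add
      (((hQb.pow 2).mul hm).mul (hts.pbd.add (PBd.const 1)))
  have h2 := PBd.length (PT_edgesC G hQ hQb hD hDb hts hw)
  refine (h2.mul h1).mono fun x => ?_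
  have h3 := List.sum_le_card_nsmul ((edgesC G (Q x) (D x) (ts x)).map fun e => e.2.2) _
    (fun c hc => by
      obtain ⟨e, he, rfl⟩ := List.mem_map.1 hc
      exact edgesC_cap (h x) he)
  rwa [List.length_map, smul_eq_mul] at h3

theorem PT_rC (G : ℕ) (hQ : PT ∅ Q) (hQb : PBd Q) (hD : PT ∅ D) (hDb : PBd D)
    (hts : PT ∅ ts) (hw : PBd (fun x => wT (ts x))) :
    PT ∅ (fun x => rC G (Q x) (D x) (ts x)) :=
  PT_rN (PT_nC G hQ hD hts) (PT_edgesC G hQ hQb hD hDb hts hw)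

theorem PBd_rC (G : ℕ) (hQ : PT ∅ Q) (hQb : PBd Q) (hD : PT ∅ D) (hDb : PBd D)
    (hts : PT ∅ ts) (hm : PBd m) (h : ∀ x, ∀ t ∈ ts x, t.1 ≤ m x) :
    PBd (fun x => rC G (Q x) (D x) (ts x)) :=
  ((PBd.const 16).mul ((PBd_nC G hQb hDb hts (PBd_wT hts hm h)).add (PBd.const 1))).mul
    ((PBd_edgesC_sum G hQ hQb hD hDb hts hm h).add (PBd.const 1))

/-- The unweighted graph is computable in polynomial time. -/
theorem PT_graphC (G : ℕ) (hQ : PT ∅ Q) (hQb : PBd Q) (hD : PT ∅ D) (hDb : PBd D)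
    (hts : PT ∅ ts) (hm : PBd m) (h : ∀ x, ∀ t ∈ ts x, t.1 ≤ m x) :
    PT ∅ (fun x => graphC G (Q x) (D x) (ts x)) :=
  have hw := PBd_wT hts hm h
  PT_blowMat (PT_nC G hQ hD hts) (PBd_nC G hQb hDb hts hw)
    (PT_rC G hQ hQb hD hDb hts hw) (PBd_rC G hQ hQb hD hDb hts hm h)
    (PT_edgesC G hQ hQb hD hDb hts hw)

end

end Vale.Agent.P318.GC
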