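import Vale.Agent.P318.GC.Core
import Vale.Agent.P318.GC.PT
import Vale.Agent.P318.NPH.Red

/-!
From reductions to parity tests with a gap to the hardness of the approximation of Uniform
Sparsest Cut within a constant factor.
-/

namespace Vale.Agent.P318.GC

open Vale.Agent.P333 Vale.Agent.Lib.PolyTime Vale.Agent.P318 Vale.Agent.P318.NPH

/-- A polynomial-time reduction of the language to parity tests, with a gap. -/
def TestRed (G0 : ℕ) (L : Set (List Bool)) : Prop :=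
  ∃ (ts : List Bool → List Test) (Q D v1 m : List Bool → ℕ),
    PT ∅ (fun r : Raw => ts r.w) ∧ PT ∅ (fun r : Raw => Q r.w) ∧ PBd (fun r : Raw => Q r.w) ∧
    PT ∅ (fun r : Raw => D r.w) ∧ PBd (fun r : Raw => D r.w) ∧ PT ∅ (fun r : Raw => v1 r.w) ∧
    PBd (fun r : Raw => m r.w) ∧ (∀ x, ∀ t ∈ ts x, t.1 ≤ m x) ∧
    ∀ x, OkTs (Q x) (D x) (ts x) ∧ (x ∈ L → YesT (Q x) (ts x) (v1 x)) ∧
      (x ∉ L → NoT G0 (Q x) (ts x) (v1 x))

/-- The factor. -/
noncomputable def factorC (G0 : ℕ) : ℝ := 1 + 1 / (200 * (G0 : ℝ))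

theorem one_lt_factorC {G0 : ℕ} (h : 1 ≤ G0) : 1 < factorC G0 := by
  have h1 : (0 : ℝ) < G0 := by exact_mod_cast h
  rw [factorC]
  have : 0 < 1 / (200 * (G0 : ℝ)) := by positivity
  linarith

theorem factorC_lt {G0 : ℕ} (h : 1 ≤ G0) : factorC G0 < 1 + 1 / ((100 * G0 : ℕ) : ℝ) := by
  have h1 : (0 : ℝ) < G0 := by exact_mod_cast h
  rw [factorC]
  push_cast
  have : 1 / (200 * (G0 : ℝ)) < 1 / (100 * (G0 : ℝ)) :=
    one_div_lt_one_div_of_lt (by positivity) (by linarith)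
  linarith

theorem gapRed_of_testRed {G0 : ℕ} (hG0 : 1 ≤ G0) {L : Set (List Bool)} (h : TestRed G0 L) :
    GapRed (fun _ => factorC G0) L := by
  obtain ⟨ts, Q, D, v1, m, hts, hQ, hQb, hD, hDb, hv, hm, hle, hx⟩ := h
  have hw := PBd_wT (ts := fun r : Raw => ts r.w) hts hm (fun r => hle r.w)
  have hn := PT_numC hQ hD hts hv
  have hd := PT_denC (100 * G0) hQ hD hts
  have hr := PT_rC (100 * G0) hQ hQb hD hDb hts hw
  have hGr := PT_graphC (100 * G0) hQ hQb hD hDb hts hm (fun r => hle r.w)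
  refine ⟨fun x => graphC (100 * G0) (Q x) (D x) (ts x), fun x => numC (Q x) (D x) (ts x) (v1 x),
    fun x => denC (100 * G0) (Q x) (D x) (ts x) * rC (100 * G0) (Q x) (D x) (ts x) ^ 2,
    fun x => (100 * G0 + 1) * numC (Q x) (D x) (ts x) (v1 x),
    fun x => denC (100 * G0) (Q x) (D x) (ts x) * (100 * G0) *
      rC (100 * G0) (Q x) (D x) (ts x) ^ 2,
    polyTime_of_PT graphW_eq hGr, polyTime_of_PT (fun _ => rfl) hn,
    polyTime_of_PT (fun _ => rfl) (hd.mul (hr.powConst 2)),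
    polyTime_of_PT (fun _ => rfl) ((PT.const (100 * G0 + 1)).mul hn),
    polyTime_of_PT (fun _ => rfl) ((hd.mul (PT.const (100 * G0))).mul (hr.powConst 2)), ?_⟩
  intro x
  obtain ⟨h1, h2, h3⟩ := hx x
  have c := gapT (v1 x) h1 hG0
  exact ⟨c.graph, c.num, Nat.mul_pos c.den (Nat.pow_pos c.r),
    Nat.mul_pos (Nat.mul_pos c.den (by omega)) (Nat.pow_pos c.r),
    gap_arithC _ _ _ _ c.num c.den (by omega) c.r _ (factorC_lt hG0),
    fun hxL => c.yes (h2 hxL), fun hxL => c.no (h3 hxL)⟩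

/-- **The statement of the final theorem.** -/
def NoPTAS : Prop :=
  ∃ C : ℝ, 1 < C ∧
    (∀ L ∈ classNP,
      ∃ (G : List Bool → List (List Bool)) (a b : List Bool → ℕ),
        PolyTime (fun w : List Bool => w) graphW G ∧
        PolyTime (fun w : List Bool => w) Nat.bits a ∧
        PolyTime (fun w : List Bool => w) Nat.bits b ∧
        ∀ x, IsGraph (G x) ∧ 0 < a x ∧ 0 < b x ∧
          (x ∈ L → Phi (capU (G x)) ≤ (a x : ℝ) / b x) ∧
          (x ∉ L → C * ((a x : ℝ) / b x) < Phi (capU (G x)))) ∧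
    (Vale.Agent.P318.HasApprox (fun _ => C) → classNP = classP)

theorem noPTAS_of_testRed {G0 : ℕ} (hG0 : 1 ≤ G0) (h : ∀ L ∈ classNP, TestRed G0 L) :
    NoPTAS := by
  refine ⟨factorC G0, one_lt_factorC hG0, fun L hL => ?_, fun halg => ?_⟩
  · obtain ⟨G, a, b, a', b', h1, h2, h3, -, -, h6⟩ := gapRed_of_testRed hG0 (h L hL)
    refine ⟨G, a, b, h1, h2, h3, fun x => ?_⟩
    obtain ⟨c1, c2, c3, -, c5, c6, c7⟩ := h6 x
    exact ⟨c1, c2, c3, c6, fun hx => lt_of_lt_of_le c5 (c7 hx)⟩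
  · refine gap_imp (F := fun _ => factorC G0) (fun N _ => ?_) (fun L hL =>
      gapRed_of_testRed hG0 (h L hL)) halg
    have := one_lt_factorC hG0
    linarith

end Vale.Agent.P318.GC
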