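import Vale.Agent.P318.GC.Cut
import Vale.Agent.P318.GC.Ineq

/-!
The gap for the weighted graph of a list of parity tests.
-/

namespace Vale.Agent.P318.GC

open Finset Vale.Agent.P318.NPH

/-- What is needed of the tests. -/
structure OkTs (Q D : ℕ) (ts : List Test) : Prop where
  Q1 : 1 ≤ Q
  ne : ts ≠ []
  ok : ∀ t ∈ ts, OkT Q D t

/-- Completeness: there is a good balanced assignment. -/
def YesT (Q : ℕ) (ts : List Test) (v1 : ℕ) : Prop :=
  ∃ S : ℕ → Bool, 2 * cntN S 0 Q = Q ∧ 4 * quadT S ts ≤ wT ts ∧ violT S ts ≤ v1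

/-- Soundness: all assignments are bad. -/
def NoT (G0 Q : ℕ) (ts : List Test) (v1 : ℕ) : Prop :=
  ∀ S : ℕ → Bool, G0 * (wT ts * (cntN S 0 Q * cntN (fun v => !S v) 0 Q) + Q ^ 2 * v1) +
    Q ^ 2 * wT ts ≤ G0 * Q ^ 2 * (quadT S ts + violT S ts)

section nums

variable {G Q D : ℕ} {ts : List Test}

theorem OkT.pairs {t : Test} (ht : OkT Q D t) : 2 ≤ t.2.2.length * (t.2.2.length - 1) := by
  have h2 := ht.two
  calc 2 = 2 * 1 := rfl
    _ ≤ _ := Nat.mul_le_mul h2 (by omega)

theorem OkT.const_le {t : Test} (ht : OkT Q D t) :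
    dN t.2.2.length t.2.1 + 2 * (D - t.2.2.length) ≤
      7 * (t.2.2.length * (t.2.2.length - 1)) := by
  have h2 := ht.two
  have h3 := ht.dle
  have h1 := ht.par
  generalize t.2.2.length = w at *
  generalize t.2.1 = b at *
  obtain ⟨u, rfl⟩ : ∃ u, w = u + 2 := ⟨w - 2, by omega⟩
  have e : (u + 2) * (u + 2 - 1) = u * u + 3 * u + 2 := by
    rw [show u + 2 - 1 = u + 1 by omega]; ring
  have e2 : 3 * (u + 2) * (u + 2) = 3 * (u * u) + 12 * u + 12 := by ring
  rw [e] at h3 ⊢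
  rw [dN, e2]
  split_ifs <;> omega

theorem wT_pos (h : OkTs Q D ts) : 1 ≤ wT ts := by
  obtain ⟨t, ht⟩ := List.exists_mem_of_ne_nil ts h.ne
  rw [wT]
  refine le_trans ?_ (List.single_le_sum (fun _ _ => Nat.zero_le _) _
    (List.mem_map_of_mem (f := fun t : Test => t.1 * (t.2.2.length * (t.2.2.length - 1))) ht))
  exact Nat.mul_pos (h.ok t ht).mu (by have := (h.ok t ht).pairs; omega)

theorem stC_pos (h : OkTs Q D ts) : 1 ≤ stC D ts :=
  Nat.mul_pos (List.length_pos_iff.2 h.ne) (Nat.succ_pos _)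

theorem aC_pos (h : OkTs Q D ts) : 1 ≤ aC Q ts :=
  Nat.mul_pos (Nat.mul_pos (by norm_num) (wT_pos h)) h.Q1

theorem lC_pos (h : OkTs Q D ts) (hG : 1 ≤ G) : 1 ≤ lC G Q D ts :=
  Nat.mul_pos (Nat.mul_pos (Nat.mul_pos (by norm_num) hG) (stC_pos h)) (aC_pos h)

theorem constC_le (h : OkTs Q D ts) : constC Q D ts ≤ 7 * (wT ts * Q ^ 2) := by
  rw [constC, wT]
  have h1 : (ts.map fun t => t.1 * (dN t.2.2.length t.2.1 + 2 * (D - t.2.2.length))).sum ≤
      (ts.map fun t => 7 * (t.1 * (t.2.2.length * (t.2.2.length - 1)))).sum := by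
    refine List.sum_le_sum fun t ht => ?_
    calc t.1 * (dN t.2.2.length t.2.1 + 2 * (D - t.2.2.length)) ≤
        t.1 * (7 * (t.2.2.length * (t.2.2.length - 1))) :=
          Nat.mul_le_mul_left _ (h.ok t ht).const_le
      _ = _ := by ring
  rw [List.sum_map_mul_left] at h1
  calc Q ^ 2 * (ts.map fun t =>
      t.1 * (dN t.2.2.length t.2.1 + 2 * (D - t.2.2.length))).sum ≤
      Q ^ 2 * (7 * (ts.map fun t => t.1 * (t.2.2.length * (t.2.2.length - 1))).sum) :=
        Nat.mul_le_mul_left _ h1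
    _ = _ := by ring

theorem violT_le (h : OkTs Q D ts) (S : ℕ → Bool) : 2 * violT S ts ≤ wT ts := by
  rw [violT, wT, ← List.sum_map_mul_left]
  refine List.sum_le_sum fun t ht => ?_
  have h1 := (h.ok t ht).pairs
  calc 2 * (t.1 * if (t.2.2.countP S + t.2.1) % 2 = 1 then 1 else 0) ≤ 2 * (t.1 * 1) := by
        refine Nat.mul_le_mul_left _ (Nat.mul_le_mul_left _ ?_)
        split_ifs <;> omega
    _ = t.1 * 2 := by ring
    _ ≤ _ := Nat.mul_le_mul_left _ h1

theorem quadT_false : quadT (fun _ => false) ts = 0 := by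
  rw [quadT]
  refine List.sum_eq_zero fun x hx => ?_
  obtain ⟨t, _, rfl⟩ := List.mem_map.1 hx
  simp

theorem v1_le {G0 v1 : ℕ} (h : OkTs Q D ts) (hG0 : 1 ≤ G0) (hno : NoT G0 Q ts v1) :
    2 * v1 ≤ wT ts := by
  have h1 := hno (fun _ => false)
  rw [quadT_false, zero_add] at h1
  have h2 := violT_le h (fun _ => false)
  have h3 : cntN (fun _ => false) 0 Q = 0 := by
    rw [cntN_const (fun _ => false) 0 Q false (fun _ _ => rfl)]; simp
  rw [h3, zero_mul, mul_zero, zero_add] at h1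
  have h4 : G0 * Q ^ 2 * v1 ≤ G0 * Q ^ 2 * violT (fun _ => false) ts := by
    have : G0 * (Q ^ 2 * v1) = G0 * Q ^ 2 * v1 := by ring
    omega
  have h5 : v1 ≤ violT (fun _ => false) ts :=
    Nat.le_of_mul_le_mul_left h4 (Nat.mul_pos hG0 (Nat.pow_pos h.Q1))
  omega

theorem numsC {v1 : ℕ} (h : OkTs Q D ts) (hG : 100 ≤ G) (hv : 2 * v1 ≤ wT ts) :
    NumsC (G : ℝ) Q (lC G Q D ts : ℕ) (aC Q ts : ℕ) (wT ts : ℕ) (constC Q D ts : ℕ)
      (8 * Q ^ 2 * v1 : ℕ) (stC D ts : ℕ) (numC Q D ts v1 : ℕ) where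
  G1 := by exact_mod_cast hG
  Q1 := by exact_mod_cast h.Q1
  b0 := Nat.cast_nonneg _
  C0 := Nat.cast_nonneg _
  V0 := Nat.cast_nonneg _
  St0 := Nat.cast_nonneg _
  a1 := by exact_mod_cast aC_pos h
  ha := by rw [aC]; push_cast; ring
  hC := by exact_mod_cast constC_le h
  hV := by
    have h1 : 8 * Q ^ 2 * v1 ≤ 4 * (wT ts * Q ^ 2) := by
      calc 8 * Q ^ 2 * v1 = 4 * (2 * v1 * Q ^ 2) := by ring
        _ ≤ _ := Nat.mul_le_mul_left _ (Nat.mul_le_mul_right _ hv)
    exact_mod_cast h1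
  hL := by
    have h1 : 10 ^ 4 * G * stC D ts ≤ lC G Q D ts := by
      rw [lC]; exact Nat.le_mul_of_pos_right _ (aC_pos h)
    exact_mod_cast h1
  hLa := by
    have h1 : 10 ^ 4 * aC Q ts ≤ lC G Q D ts := by
      rw [lC]
      have h2 : 10 ^ 4 * 1 ≤ 10 ^ 4 * (G * stC D ts) :=
        Nat.mul_le_mul_left _ (Nat.mul_pos (by omega) (stC_pos h))
      calc 10 ^ 4 * aC Q ts = 10 ^ 4 * 1 * aC Q ts := by ring
        _ ≤ 10 ^ 4 * (G * stC D ts) * aC Q ts := Nat.mul_le_mul_right _ h2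
        _ = _ := by ring
    exact_mod_cast h1
  hnum := by rw [numC]; push_cast; ring

end nums

/-- **The gap, completeness**: there is a cut of small ratio. -/
theorem weighted_yesC {G Q D : ℕ} {ts : List Test} {v1 : ℕ} (h : OkTs Q D ts) (hG : 1 ≤ G)
    (hyes : YesT Q ts v1) :
    ∃ S : ℕ → Bool, 0 < cntN S 0 (nC G Q D ts) ∧ cntN S 0 (nC G Q D ts) < nC G Q D ts ∧
      cutE (edgesC G Q D ts) S * denC G Q D ts ≤
        numC Q D ts v1 * (cntN S 0 (nC G Q D ts) *
          (nC G Q D ts - cntN S 0 (nC G Q D ts))) := by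
  obtain ⟨S0, hbal0, hq0, hv0⟩ := hyes
  have hQ := h.Q1
  have hLpos : 1 ≤ lC G Q D ts := lC_pos h hG
  set S := extC G Q D ts S0 with hSdef
  have hU : Unif Q (lC G Q D ts) S := extC_unif hQ hLpos
  have hS1 : S Q = true := extC_hub1 hQ hLpos
  have hS2 : S (2 * Q) = false := extC_hub2 hQ hLpos
  have hGd : GoodC G Q D ts S := extC_good hLpos h.ok
  have hcP : ∀ t ∈ ts, t.2.2.countP S = t.2.2.countP S0 := fun t ht =>
    countP_ext hLpos (h.ok t ht).lt
  have hq : quadT S ts = quadT S0 ts := quadT_congr hcP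
  have hv : violT S ts = violT S0 ts := violT_congr hcP
  have hbal : 2 * cntN S 0 Q = Q := by
    have e : cntN S 0 Q = cntN S0 0 Q := by
      refine cntN_congr fun i hi => ?_
      rw [zero_add]
      exact extC_lt hLpos hi
    rw [e, hbal0]
  have hval := sep_eqC G Q D ts h.ok S hS1 hS2 hU hGd
  set N := nC G Q D ts with hN
  set L := lC G Q D ts with hL
  have hcount := hU.count
  rw [hS1, hS2, if_pos rfl, if_neg (by simp), add_zero] at hcount
  have hc : cntN S 0 N = L * (cntN S 0 Q + Q) + cntN S (3 * Q * L) (stC D ts) := by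
    rw [hN, nC, cntN_add, hcount, zero_add]
  have hz := cntN_le S (3 * Q * L) (stC D ts)
  have hNN : N = 3 * Q * L + stC D ts := rfl
  have hhalf : 2 * (L * (cntN S 0 Q + Q)) = 3 * Q * L := by
    rw [show 2 * (L * (cntN S 0 Q + Q)) = L * (2 * cntN S 0 Q + 2 * Q) by ring, hbal]
    ring
  have hpos3 : 0 < 3 * Q * L := Nat.mul_pos (Nat.mul_pos (by norm_num) hQ) hLpos
  have h2c1 : 3 * Q * L ≤ 2 * cntN S 0 N := by rw [hc]; omega
  have h2c0 : 3 * Q * L ≤ 2 * (N - cntN S 0 N) := by rw [hc, hNN]; omega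
  refine ⟨S, by omega, by omega, ?_⟩
  set c1 := cntN S 0 N with hc1
  set c0 := N - cntN S 0 N with hc0
  set cut := cutE (edgesC G Q D ts) S with hcut
  -- 16 cut ≤ num
  have h16 : 16 * cut ≤ numC Q D ts v1 := by
    have h1 : 16 * cut = 8 * valC Q D ts S := by rw [← hval]; ring
    rw [h1, valC, hq, hv, numC]
    have h2 : 8 * (Q ^ 2 * quadT S0 ts) ≤ 2 * wT ts * Q ^ 2 := by
      calc 8 * (Q ^ 2 * quadT S0 ts) = 2 * (4 * quadT S0 ts) * Q ^ 2 := by ring
        _ ≤ _ := Nat.mul_le_mul_right _ (Nat.mul_le_mul_left _ hq0)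
    have h3 : 8 * (Q ^ 2 * violT S0 ts) ≤ 8 * Q ^ 2 * v1 := by
      calc 8 * (Q ^ 2 * violT S0 ts) = 8 * Q ^ 2 * violT S0 ts := by ring
        _ ≤ _ := Nat.mul_le_mul_left _ hv0
    have h6 : 8 * (2 * (aC Q ts * Q)) = 16 * aC Q ts * Q := by ring
    omega
  have hprod : 9 * Q ^ 2 * L ^ 2 ≤ 4 * (c1 * c0) := by
    calc 9 * Q ^ 2 * L ^ 2 = (3 * Q * L) * (3 * Q * L) := by ring
      _ ≤ (2 * c1) * (2 * c0) := Nat.mul_le_mul h2c1 h2c0
      _ = 4 * (c1 * c0) := by ring
  rw [denC, ← hL]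
  have h7 : 4 * (cut * (36 * Q ^ 2 * L ^ 2)) ≤ 4 * (numC Q D ts v1 * (c1 * c0)) := by
    calc 4 * (cut * (36 * Q ^ 2 * L ^ 2)) = (16 * cut) * (9 * Q ^ 2 * L ^ 2) := by ring
      _ ≤ numC Q D ts v1 * (4 * (c1 * c0)) := Nat.mul_le_mul h16 hprod
      _ = 4 * (numC Q D ts v1 * (c1 * c0)) := by ring
  omega

section no

variable {G0 Q D : ℕ} {ts : List Test} {v1 : ℕ} (h : OkTs Q D ts) (hG0 : 1 ≤ G0)
  (hno : NoT G0 Q ts v1) (S : ℕ → Bool)

include h hG0 hno in
/-- The gap, soundness, for the cuts which contain the second hub on the side `false`. -/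
theorem weighted_noC_aux (hS2 : S (2 * Q) = false) :
    (((100 * G0 : ℕ) : ℝ) + 1) * (numC Q D ts v1 : ℕ) *
      ((cntN S 0 (nC (100 * G0) Q D ts) : ℝ) *
        (cntN (fun v => !S v) 0 (nC (100 * G0) Q D ts) : ℝ)) ≤
      (cutE (edgesC (100 * G0) Q D ts) S : ℝ) * (36 * (Q : ℝ) ^ 2 *
        (lC (100 * G0) Q D ts : ℝ) ^ 2) * ((100 * G0 : ℕ) : ℝ) := by
  have hQ := h.Q1
  have hG : 100 ≤ 100 * G0 := by omega
  have hnums := numsC (G := 100 * G0) (v1 := v1) h hG (v1_le h hG0 hno)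
  have hsame := fun h1 => same_geC (100 * G0) Q D ts hQ h.ok S h1 hS2
  have hsep := fun h1 => sep_geC (100 * G0) Q D ts h.ok S h1 hS2
  set N := nC (100 * G0) Q D ts with hN
  set L := lC (100 * G0) Q D ts with hL
  set St := stC D ts with hSt
  set cut := cutE (edgesC (100 * G0) Q D ts) S with hcut
  have hNN : N = 3 * Q * L + St := rfl
  have hnot := cntN_not S 0 N
  by_cases hbig : cutE (clusterE Q L (bigC Q ts)) S < bigC Q ts
  · -- uniform on the clusters
    have hU := cluster_unif hbig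
    have hcount := hU.count
    have hc : cntN S 0 N = cntN S 0 (3 * Q * L) + cntN S (3 * Q * L) St := by
      rw [hNN, cntN_add, zero_add]
    have hz := cntN_not S (3 * Q * L) St
    rw [hS2] at hcount
    simp only [Bool.false_eq_true, if_false, add_zero] at hcount
    by_cases hS1 : S Q = true
    · rw [if_pos hS1] at hcount
      have h1 := hsep hS1
      have hsum := cntN_not S 0 Q
      have hnoS := hno S
      set n1 := cntN S 0 Q with hn1'
      set n0 := cntN (fun v => !S v) 0 Q with hn0'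
      have hc0 : cntN (fun v => !S v) 0 N = L * (Q + n0) + cntN (fun v => !S v) (3 * Q * L) St := by
        have e1 : L * (n1 + Q) + L * (Q + n0) = 3 * Q * L := by
          calc L * (n1 + Q) + L * (Q + n0) = L * ((n1 + n0) + 2 * Q) := by ring
            _ = 3 * Q * L := by rw [hsum]; ring
        omega
      have hc1 : cntN S 0 N = L * (Q + n1) + cntN S (3 * Q * L) St := by
        rw [hc, hcount, add_comm n1 Q]
      rw [hc1, hc0]
      push_cast
      have hG0' : (0 : ℝ) < G0 := by exact_mod_cast hG0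
      have key := hnums.case3 (n1 := n1) (n0 := n0) (z1 := cntN S (3 * Q * L) St)
        (z0 := cntN (fun v => !S v) (3 * Q * L) St) (cut := cut)
        (E := 8 * ((wT ts : ℝ) * (Q : ℝ) ^ 2) / G0) (Nat.cast_nonneg _)
        (Nat.cast_nonneg _) (by exact_mod_cast hsum) (Nat.cast_nonneg _) (Nat.cast_nonneg _)
        (by exact_mod_cast hz)
        (by
          refine le_of_eq ?_
          push_cast
          field_simp
          ring) (by
          have h2 : 8 * valC Q D ts S ≤ 16 * cut := by omega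
          rw [valC] at h2
          have h3 : (G0 : ℝ) * ((wT ts : ℝ) * ((n1 : ℝ) * n0) + (Q : ℝ) ^ 2 * v1) +
              (Q : ℝ) ^ 2 * wT ts ≤ G0 * (Q : ℝ) ^ 2 * (quadT S ts + violT S ts) := by
            exact_mod_cast hnoS
          have h4 : (wT ts : ℝ) * ((n1 : ℝ) * n0) + (Q : ℝ) ^ 2 * v1 +
              (wT ts : ℝ) * (Q : ℝ) ^ 2 / G0 ≤ (Q : ℝ) ^ 2 * (quadT S ts + violT S ts) := by
            have h5 : (wT ts : ℝ) * ((n1 : ℝ) * n0) + (Q : ℝ) ^ 2 * v1 +
              (wT ts : ℝ) * (Q : ℝ) ^ 2 / G0 = ((G0 : ℝ) * ((wT ts : ℝ) * ((n1 : ℝ) * n0) +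
                (Q : ℝ) ^ 2 * v1) + (Q : ℝ) ^ 2 * wT ts) / G0 := by
              field_simp
            rw [h5, div_le_iff₀ hG0']
            linarith
          have h6 : 8 * (2 * ((aC Q ts : ℝ) * Q) + (Q : ℝ) ^ 2 * quadT S ts + constC Q D ts +
              (Q : ℝ) ^ 2 * violT S ts) ≤ 16 * cut := by exact_mod_cast h2
          have h7 : 8 * ((wT ts : ℝ) * (Q : ℝ) ^ 2) / G0 =
              8 * ((wT ts : ℝ) * (Q : ℝ) ^ 2 / G0) := by ring
          rw [h7]
          push_cast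
          nlinarith)
      push_cast at key
      exact key
    · rw [if_neg hS1, add_zero] at hcount
      have hS1' : S Q = false := by simpa using hS1
      have h1 := hsame hS1'
      have key := hnums.case2 (n1 := cntN S 0 Q) (z1 := cntN S (3 * Q * L) St)
        (c0 := cntN (fun v => !S v) 0 N) (cut := cut) (Nat.cast_nonneg _) (Nat.cast_nonneg _)
        (Nat.cast_nonneg _) (by
          have h2 : cntN (fun v => !S v) 0 N ≤ 3 * (Q * L) + St := by
            have : 3 * Q * L = 3 * (Q * L) := by ring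
            omega
          exact_mod_cast h2) (by exact_mod_cast h1)
      rw [hc, hcount]
      push_cast
      push_cast at key
      exact key
  · have h1 : 4 * aC Q ts * Q ≤ cut := by
      rw [bigC] at hbig
      push Not at hbig
      refine hbig.trans ?_
      rw [hcut, edgesC, cutE_append, cutE_append, ← hL, bigC]
      omega
    have key := hnums.case1 (c1 := cntN S 0 N) (c0 := cntN (fun v => !S v) 0 N) (cut := cut)
      (Nat.cast_nonneg _) (Nat.cast_nonneg _) (by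
        have h2 : cntN S 0 N + cntN (fun v => !S v) 0 N = 3 * (Q * L) + St := by
          rw [hnot, hNN]; ring
        exact_mod_cast h2) (by exact_mod_cast h1)
    push_cast at key
    push_cast
    exact key

include h hG0 hno in
/-- **The gap, soundness**: all cuts have a large ratio. -/
theorem weighted_noC :
    (100 * G0 + 1) * numC Q D ts v1 *
      (cntN S 0 (nC (100 * G0) Q D ts) * (nC (100 * G0) Q D ts -
        cntN S 0 (nC (100 * G0) Q D ts))) ≤
      denC (100 * G0) Q D ts * (100 * G0) * cutE (edgesC (100 * G0) Q D ts) S := by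
  have key : ∀ S : ℕ → Bool, S (2 * Q) = false →
      (100 * G0 + 1) * numC Q D ts v1 *
      (cntN S 0 (nC (100 * G0) Q D ts) * cntN (fun v => !S v) 0 (nC (100 * G0) Q D ts)) ≤
      denC (100 * G0) Q D ts * (100 * G0) * cutE (edgesC (100 * G0) Q D ts) S := by
    intro S hS
    have h1 := weighted_noC_aux h hG0 hno S hS
    have h2 : (((100 * G0 + 1) * numC Q D ts v1 *
      (cntN S 0 (nC (100 * G0) Q D ts) *
        cntN (fun v => !S v) 0 (nC (100 * G0) Q D ts)) : ℕ) : ℝ) ≤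
      ((denC (100 * G0) Q D ts * (100 * G0) * cutE (edgesC (100 * G0) Q D ts) S : ℕ) : ℝ) := by
      rw [denC]
      push_cast
      push_cast at h1
      linarith
    exact_mod_cast h2
  have hnot := cntN_not S 0 (nC (100 * G0) Q D ts)
  have h0 : nC (100 * G0) Q D ts - cntN S 0 (nC (100 * G0) Q D ts) =
      cntN (fun v => !S v) 0 (nC (100 * G0) Q D ts) := by omega
  rw [h0]
  cases hS : S (2 * Q)
  · exact key S hS
  · have h1 := key (fun v => !S v) (by rw [hS]; rfl)
    rw [cutE_not] at h1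
    have h2 : (fun v => !!S v) = S := by funext v; simp
    rw [h2, mul_comm (cntN (fun v => !S v) 0 _)] at h1
    exact h1

end no

end Vale.Agent.P318.GC
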